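import Vale.Agent.P130.Full.Core.Profile.Weights

/-!
Profile: the total weight of the active frequencies, their divisor sums, and the mean square error.
-/

noncomputable section

namespace Vale.Agent.P130.Full.Core.Profile.Par

open Finset Real
open Vale.Agent.P110.Full (ch conj_ch norm_ch)
open scoped ComplexConjugate

variable (P : Par)

theorem lt_size : (0 : ℝ) < size P.A P.k P.F ∧
    16 * 200 * ((P.N0 * P.A : ℕ) : ℝ) ≤ size P.A P.k P.F := by
  refine ⟨Nat.cast_pos.2 (size_pos P.A_pos P.F_pos), ?_⟩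
  have h := P.F_big
  have := mul_le_mul_of_nonneg_right P.e_small (Nat.cast_nonneg (size P.A P.k P.F) : (0 : ℝ) ≤ _)
  push_cast at *
  linarith

theorem mem_V {v : ℤ} (hv : v ∈ P.V) :
    v ≠ 0 ∧ -v ∈ P.V ∧ 0 < P.pw v ∧ P.pw (-v) = P.pw v ∧ P.lo v ≤ P.hi v ∧
      P.lo (-v) = 1 - P.hi v ∧ P.hi (-v) = 1 - P.lo v ∧ |(v : ℝ)| ≤ (P.N0 * P.A : ℕ) := by
  have hle : ∀ u ∈ P.Vp, P.lo' u ≤ P.hi' u := fun u hu => by
    have h := P.mem_Vp hu
    have := mul_nonneg P.b_bounds.1 (show (0 : ℝ) ≤ P.pt u by linarith [h.2.2.1, P.δ_pos])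
    simp only [Par.lo', Par.hi']
    linarith
  rcases Finset.mem_union.1 hv with hv | hv
  · obtain ⟨h0, h1, -⟩ := P.mem_Vp hv
    refine ⟨by omega, Finset.mem_union_right _ (Finset.mem_image_of_mem _ hv), P.pw_pos hv,
      P.pw_neg v, ?_, ?_, ?_, ?_⟩
    · simp only [Par.lo, Par.hi, if_pos h0]; exact hle v hv
    · simp only [Par.lo, Par.hi, if_pos h0, if_neg (show ¬ 0 < -v by omega), neg_neg]
    · simp only [Par.lo, Par.hi, if_pos h0, if_neg (show ¬ 0 < -v by omega), neg_neg]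
    · rw [abs_of_pos (Int.cast_pos.2 h0)]
      exact_mod_cast h1
  · obtain ⟨u, hu, rfl⟩ := Finset.mem_image.1 hv
    obtain ⟨h0, h1, -⟩ := P.mem_Vp hu
    refine ⟨by omega, ?_, by rw [P.pw_neg]; exact P.pw_pos hu, P.pw_neg (-u), ?_, ?_, ?_, ?_⟩
    · rw [neg_neg]; exact Finset.mem_union_left _ hu
    · simp only [Par.lo, Par.hi, if_neg (show ¬ 0 < -u by omega), neg_neg]
      linarith [hle u hu]
    · simp only [Par.lo, Par.hi, neg_neg, if_pos h0, if_neg (show ¬ 0 < -u by omega)]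
      ring
    · simp only [Par.lo, Par.hi, neg_neg, if_pos h0, if_neg (show ¬ 0 < -u by omega)]
      ring
    · rw [Int.cast_neg, abs_neg, abs_of_pos (Int.cast_pos.2 h0)]
      exact_mod_cast h1

theorem sep {v w : ℤ} (hv : v ∈ P.V) (hw : w ∈ P.V) :
    |((v - w : ℤ) : ℝ)| < size P.A P.k P.F := by
  have h1 := (P.mem_V hv).2.2.2.2.2.2.2
  have h2 := (P.mem_V hw).2.2.2.2.2.2.2
  have := abs_sub (v : ℝ) (w : ℝ)
  have := P.lt_size.2
  push_cast at *
  linarith [P.lt_size.1]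

theorem orth {v w : ℤ} (hv : v ∈ P.V) (hw : w ∈ P.V) (hne : v ≠ w) :
    ∑ i : Fin (size P.A P.k P.F), ch (((v - w : ℤ) : ℝ) * ((i : ℕ) / size P.A P.k P.F)) = 0 :=
  grid_orth P.A_pos P.F_pos (sub_ne_zero.2 hne) (P.sep hv hw)

theorem active_subset (ψ : ℝ) : active P.V P.lo P.hi ψ ⊆ P.V := Finset.filter_subset _ _

theorem sum_le_one (ψ : ℝ) : ∑ v ∈ active P.V P.lo P.hi ψ, P.pw v ≤ 1 := by
  obtain ⟨t, -, h⟩ := grid_err (k := P.k) P.A_pos P.F_pos (active P.V P.lo P.hi ψ) ψ 0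
    fun v hv w hw _ => P.sep (P.active_subset ψ hv) (P.active_subset ψ hw)
  set N := size P.A P.k P.F
  set c := fun v => coef P.A P.k P.F v ψ
  have h1 := h fun v => c v * ch (-(v * t / N))
  have h2 : ∀ v, (conj (c v * ch (-(v * t / N))) * c v * ch (-(v * t / N))).re = ‖c v‖ ^ 2 := by
    intro v
    rw [show conj (c v * ch (-(v * t / N))) * c v * ch (-(v * t / N)) =
      (c v * ch (-(v * t / N))) * conj (c v * ch (-(v * t / N))) by ring,
      Complex.mul_conj, Complex.ofReal_re, Complex.normSq_eq_norm_sq, norm_mul, norm_ch, mul_one]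
  simp only [norm_mul, norm_ch, mul_one] at h1
  rw [Finset.sum_congr rfl fun v _ => h2 v] at h1
  have h3 : (0 : ℝ) ≤ N * (1 + ∑ v ∈ active P.V P.lo P.hi ψ, ‖c v‖ ^ 2 -
      2 * ∑ v ∈ active P.V P.lo P.hi ψ, ‖c v‖ ^ 2) := h1 ▸ Finset.sum_nonneg fun i _ => sq_nonneg _
  have h4 := (mul_nonneg_iff_of_pos_left P.lt_size.1).1 h3
  have h5 : ∑ v ∈ active P.V P.lo P.hi ψ, P.pw v ≤ ∑ v ∈ active P.V P.lo P.hi ψ, ‖c v‖ ^ 2 :=
    Finset.sum_le_sum fun v hv => (P.coef_ge hv).1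
  linarith

variable {ψ : ℝ}

theorem one_sub_mem (hψ : ψ ∈ Set.Icc P.δ (1 - P.δ)) : 1 - ψ ∈ Set.Icc P.δ (1 - P.δ) :=
  ⟨by linarith [hψ.2], by linarith [hψ.1]⟩

theorem lower (hψ : ψ ∈ Set.Icc P.δ (1 - P.δ)) :
    1 - 15 * P.e ≤ ∑ v ∈ active P.V P.lo P.hi ψ, P.pw v := by
  rw [P.sum_active]
  simp only [P.pw_neg]
  refine le_trans ?_ (add_le_add (P.lower_pos hψ) (P.lower_pos (P.one_sub_mem hψ)))
  rw [show Real.sin (π * (1 - ψ)) = Real.sin (π * ψ) by
      rw [mul_sub, mul_one, Real.sin_pi_sub],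
    ← mul_add, ← Finset.sum_add_distrib]
  refine le_trans ?_ (mul_le_mul_of_nonneg_left (le_trans (sub_le_sub_left P.N0_tail 1)
    (sinc_sq_sum (lt_of_lt_of_le P.δ_pos hψ.1) (by linarith [hψ.2, P.δ_pos]) P.N0_two))
    (by linarith [P.e_small]))
  nlinarith [P.e_pos]

theorem div_bound (hψ : ψ ∈ Set.Icc P.δ (1 - P.δ)) (R : ℕ) (hR : 2 ≤ R) (D : ℕ) :
    ∑ d ∈ Finset.Icc 2 D,
      (∑ v ∈ active P.V P.lo P.hi ψ, if (d : ℤ) ∣ v then P.pw v else 0) ^ R ≤
        8 * (3 / 4 : ℝ) ^ R := by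
  set s : ℕ → ℝ := fun d => ∑ v ∈ active P.V P.lo P.hi ψ, if (d : ℤ) ∣ v then P.pw v else 0
  set E := 4 * P.N0 * ((P.k : ℝ) + 1) / (P.δ ^ 3 * P.A)
  set M := P.N0 * P.A
  have hA := P.A_pos'
  have hd := P.δ_pos
  have hE0 : 0 ≤ E := by positivity
  have hs0 : ∀ d, 0 ≤ s d := fun d => Finset.sum_nonneg fun v hv => by
    split_ifs
    · exact (P.coef_ge hv).2.1.le
    · rfl
  have hs : ∀ d, 2 ≤ d → s d ≤ 11 / 10 / d + E := by
    intro d hd
    simp only [s]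
    rw [P.sum_active]
    simp only [P.pw_neg, dvd_neg]
    have h1 := P.sum_le_one ψ
    rw [P.sum_active] at h1
    simp only [P.pw_neg] at h1
    have h2 : (0 : ℝ) ≤ 11 / 10 / d := by positivity
    calc _ ≤ _ := add_le_add (P.div_pos_bound hψ hd) (P.div_pos_bound (P.one_sub_mem hψ) hd)
      _ = 11 / 10 / d * (∑ v ∈ P.pos ψ, P.pw v + ∑ v ∈ P.pos (1 - ψ), P.pw v) + E := by
          simp only [E]; ring
      _ ≤ _ := by nlinarith
  have hs' : ∀ d, M < d → s d = 0 := fun d hd => Finset.sum_eq_zero fun v hv => by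
    rw [if_neg]
    intro h
    obtain ⟨h0, -, -, -, -, -, -, h1⟩ := P.mem_V (P.active_subset ψ hv)
    have h2 := Nat.le_of_dvd (Int.natAbs_pos.2 h0) (Int.natCast_dvd.1 h)
    rw [← Int.cast_abs, Int.abs_eq_natAbs, Int.cast_natCast] at h1
    have : v.natAbs ≤ M := by exact_mod_cast h1
    omega
  set C := 16 / 9 * (3 / 4 : ℝ) ^ R
  have hterm : ∀ d, 2 ≤ d → s d ^ R ≤ C * (2 * (121 / 100) * ((d : ℝ) ^ 2)⁻¹ + 2 * E ^ 2) := by
    intro d hd
    have h1 := hs d hd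
    have hd2 : (2 : ℝ) ≤ d := by exact_mod_cast hd
    have h2 : 11 / 10 / (d : ℝ) ≤ 11 / 20 := by
      rw [div_le_iff₀ (by linarith)]; linarith
    have h34 : s d ≤ 3 / 4 := by
      have : E ≤ 1 / 10 := P.A_div
      linarith
    have h3 : s d ^ 2 ≤ 2 * (121 / 100) * ((d : ℝ) ^ 2)⁻¹ + 2 * E ^ 2 := by
      have := pow_le_pow_left₀ (hs0 d) h1 2
      have h4 := sq_nonneg (11 / 10 / (d : ℝ) - E)
      have : (11 / 10 / (d : ℝ)) ^ 2 = 121 / 100 * ((d : ℝ) ^ 2)⁻¹ := by ring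
      nlinarith
    calc s d ^ R = s d ^ (R - 2) * s d ^ 2 := by rw [← pow_add, Nat.sub_add_cancel hR]
      _ ≤ (3 / 4 : ℝ) ^ (R - 2) * s d ^ 2 :=
          mul_le_mul_of_nonneg_right (pow_le_pow_left₀ (hs0 d) h34 _) (sq_nonneg _)
      _ = C * s d ^ 2 := by
          simp only [C]
          conv_rhs => rw [← Nat.sub_add_cancel hR, pow_add]
          ring
      _ ≤ _ := mul_le_mul_of_nonneg_left h3 (by positivity)
  calc ∑ d ∈ Finset.Icc 2 D, s d ^ R
      = ∑ d ∈ (Finset.Icc 2 D).filter (· ≤ M), s d ^ R := by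
        refine (Finset.sum_filter_of_ne fun d _ h => ?_).symm
        by_contra h'
        exact h (by rw [hs' d (by omega), zero_pow (by omega)])
    _ ≤ ∑ d ∈ Finset.Ioc 1 M, s d ^ R := by
        refine Finset.sum_le_sum_of_subset_of_nonneg (fun d hd => ?_) fun d _ _ =>
          pow_nonneg (hs0 d) R
        simp only [Finset.mem_filter, Finset.mem_Icc] at hd
        exact Finset.mem_Ioc.2 ⟨by omega, hd.2⟩
    _ ≤ ∑ d ∈ Finset.Ioc 1 M, C * (2 * (121 / 100) * ((d : ℝ) ^ 2)⁻¹ + 2 * E ^ 2) :=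
        Finset.sum_le_sum fun d hd => hterm d (Finset.mem_Ioc.1 hd).1
    _ ≤ C * (2 * (121 / 100) + 2 * (1 / 8)) := by
        rw [← Finset.mul_sum, Finset.sum_add_distrib, ← Finset.mul_sum, Finset.sum_const,
          Nat.card_Ioc, nsmul_eq_mul]
        refine mul_le_mul_of_nonneg_left (add_le_add ?_ ?_) (by positivity)
        · refine mul_le_of_le_one_right (by norm_num) ?_
          rcases Nat.eq_zero_or_pos M with h | h
          · simp [h]
          · refine (sum_Ioc_inv_sq_le_sub one_ne_zero h).trans ?_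
            have : (0 : ℝ) ≤ (M : ℝ)⁻¹ := by positivity
            push_cast
            linarith
        · have h1 : E ^ 2 * (P.N0 * P.A) ≤ 1 / 8 := P.A_div'
          have h2 : ((M - 1 : ℕ) : ℝ) ≤ P.N0 * P.A := by
            calc ((M - 1 : ℕ) : ℝ) ≤ (M : ℝ) := by exact_mod_cast Nat.sub_le M 1
              _ = _ := by simp [M]
          nlinarith [mul_le_mul_of_nonneg_left h2 (sq_nonneg E)]
    _ ≤ _ := by
        simp only [C]
        nlinarith [show (0 : ℝ) ≤ (3 / 4) ^ R by positivity]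

theorem error (hψ : ψ ∈ Set.Icc P.δ (1 - P.δ)) :
    ∃ γ : ℤ → ℂ, (∀ v ∈ active P.V P.lo P.hi ψ, ‖γ v‖ ^ 2 = P.pw v) ∧
      ∀ x : ℝ, ∑ i : Fin (size P.A P.k P.F),
        ‖ch (ψ * stair P.A P.k P.F (x + (i : ℕ) / size P.A P.k P.F)) -
          ∑ v ∈ active P.V P.lo P.hi ψ, γ v * ch (v * (x + (i : ℕ) / size P.A P.k P.F))‖ ^ 2 ≤
        16 * P.e * size P.A P.k P.F := by
  set N := size P.A P.k P.F
  set c := fun v => coef P.A P.k P.F v ψ
  set g : ℤ → ℂ := fun v => ((Real.sqrt (P.pw v) / ‖c v‖ : ℝ) : ℂ) * c v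
  have hg : ∀ v ∈ active P.V P.lo P.hi ψ, ‖g v‖ ^ 2 = P.pw v ∧
      P.pw v ≤ Real.sqrt (P.pw v) * ‖c v‖ ∧
      conj (g v) * c v = ((Real.sqrt (P.pw v) * ‖c v‖ : ℝ) : ℂ) := by
    intro v hv
    obtain ⟨h1, h2, -⟩ := P.coef_ge hv
    have hc : 0 < ‖c v‖ := by
      have : 0 < ‖c v‖ ^ 2 := lt_of_lt_of_le h2 h1
      exact (norm_nonneg _).lt_of_ne fun h => by rw [← h] at this; norm_num at this
    refine ⟨?_, ?_, ?_⟩
    · simp only [g]
      rw [norm_mul, Complex.norm_real, Real.norm_eq_abs, abs_of_nonneg (by positivity),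
        div_mul_cancel₀ _ hc.ne', Real.sq_sqrt h2.le]
    · calc P.pw v = Real.sqrt (P.pw v) * Real.sqrt (P.pw v) := (Real.mul_self_sqrt h2.le).symm
        _ ≤ _ := mul_le_mul_of_nonneg_left
          ((Real.sqrt_le_sqrt h1).trans_eq (Real.sqrt_sq hc.le)) (Real.sqrt_nonneg _)
    · simp only [g]
      rw [map_mul, Complex.conj_ofReal, mul_assoc, mul_comm (conj (c v)), Complex.mul_conj,
        Complex.normSq_eq_norm_sq, ← Complex.ofReal_mul]
      congr 1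
      field_simp
  refine ⟨g, fun v hv => (hg v hv).1, fun x => ?_⟩
  obtain ⟨t, ⟨ht0, ht1⟩, h⟩ := grid_err (k := P.k) P.A_pos P.F_pos (active P.V P.lo P.hi ψ) ψ x
    fun v hv w hw _ => P.sep (P.active_subset ψ hv) (P.active_subset ψ hw)
  rw [h g, Finset.sum_congr rfl fun v hv => (hg v hv).1, mul_comm (16 * P.e)]
  refine mul_le_mul_of_nonneg_left ?_ P.lt_size.1.le
  have hterm : ∀ v ∈ active P.V P.lo P.hi ψ, (1 - P.e / 2) * P.pw v ≤
      (conj (g v) * c v * ch (-(v * t / N))).re := by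
    intro v hv
    rw [(hg v hv).2.2, Complex.re_ofReal_mul]
    have hv' := (P.coef_ge hv).2.2
    have h1 : 1 - P.e / 2 ≤ (ch (-(v * t / N))).re := by
      have h2 := (Complex.re_le_norm (1 - ch (-((v : ℝ) * t / N)))).trans (norm_one_sub_ch_le _)
      rw [Complex.sub_re, Complex.one_re, abs_neg, abs_div, abs_mul, abs_of_nonneg ht0,
        abs_of_pos P.lt_size.1] at h2
      have h3 : |(v : ℝ)| * t ≤ P.e / 16 * N := by
        calc |(v : ℝ)| * t ≤ |(v : ℝ)| := mul_le_of_le_one_right (abs_nonneg _) ht1.le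
          _ ≤ _ := by linarith [P.F_big]
      have h4 : |(v : ℝ)| * t / N ≤ P.e / 16 := (div_le_iff₀ P.lt_size.1).2 h3
      nlinarith [Real.pi_lt_four, Real.pi_pos, P.e_pos]
    have h0 : 0 ≤ 1 - P.e / 2 := by linarith [P.e_small]
    calc (1 - P.e / 2) * P.pw v ≤ (1 - P.e / 2) * (Real.sqrt (P.pw v) * ‖c v‖) :=
          mul_le_mul_of_nonneg_left (hg v hv).2.1 h0
      _ ≤ _ := by
          rw [mul_comm]
          exact mul_le_mul_of_nonneg_left h1 (by positivity)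
  have h5 := Finset.sum_le_sum hterm
  rw [← Finset.mul_sum] at h5
  have h6 := P.lower hψ
  have h7 := mul_le_mul_of_nonneg_left (P.sum_le_one ψ) P.e_pos.le
  nlinarith

end Vale.Agent.P130.Full.Core.Profile.Par
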