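import Vale.Agent.P130.Full.Core.Profile.Identity

/-!
Profile: the staircase with quadratically spaced cells and its discrete Fourier coefficients.
-/

noncomputable section

namespace Vale.Agent.P130.Full.Core.Profile

open Finset Real
open Vale.Agent.P110.Full (ch ch_add conj_ch norm_ch ch_pow)
open scoped ComplexConjugate

/-- Mean square distance to a combination of orthogonal characters. -/
theorem sq_err {ι κ : Type*} [Fintype ι] (s : Finset κ) (f : ι → ℂ) (E : κ → ι → ℂ) (γ : κ → ℂ)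
    (hf : ∀ i, ‖f i‖ = 1)
    (horth : ∀ v ∈ s, ∀ w ∈ s, v ≠ w → ∑ i, E v i * conj (E w i) = 0)
    (hE : ∀ v ∈ s, ∀ i, ‖E v i‖ = 1) :
    ∑ i, ‖f i - ∑ v ∈ s, γ v * E v i‖ ^ 2 =
      (Fintype.card ι : ℝ) + (Fintype.card ι : ℝ) * ∑ v ∈ s, ‖γ v‖ ^ 2 -
        2 * (∑ v ∈ s, conj (γ v) * ∑ i, f i * conj (E v i)).re := by
  classical
  have hG : ∀ i, ‖f i - ∑ v ∈ s, γ v * E v i‖ ^ 2 = 1 + ‖∑ v ∈ s, γ v * E v i‖ ^ 2 -
      2 * (f i * conj (∑ v ∈ s, γ v * E v i)).re := fun i => by
    rw [← Complex.normSq_eq_norm_sq, Complex.normSq_sub, Complex.normSq_eq_norm_sq,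
      Complex.normSq_eq_norm_sq, hf, one_pow]
  have h2 : ∑ i, ‖∑ v ∈ s, γ v * E v i‖ ^ 2 = (Fintype.card ι : ℝ) * ∑ v ∈ s, ‖γ v‖ ^ 2 := by
    have h : ((∑ i, ‖∑ v ∈ s, γ v * E v i‖ ^ 2 : ℝ) : ℂ) =
        (((Fintype.card ι : ℝ) * ∑ v ∈ s, ‖γ v‖ ^ 2 : ℝ) : ℂ) := by
      have e : ∀ i, ((‖∑ v ∈ s, γ v * E v i‖ ^ 2 : ℝ) : ℂ) =
          ∑ v ∈ s, ∑ w ∈ s, γ v * conj (γ w) * (E v i * conj (E w i)) := fun i => by
        rw [← Complex.normSq_eq_norm_sq, ← Complex.mul_conj, map_sum, Finset.sum_mul_sum]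
        refine Finset.sum_congr rfl fun v _ => Finset.sum_congr rfl fun w _ => ?_
        rw [map_mul]; ring
      push_cast [Finset.mul_sum]
      have e' := fun i => (Complex.ofReal_pow _ 2).symm.trans (e i)
      simp only [e']
      rw [Finset.sum_comm]
      refine Finset.sum_congr rfl fun v hv => ?_
      rw [Finset.sum_comm]
      simp_rw [← Finset.mul_sum]
      rw [Finset.sum_eq_single v]
      · have h1 : ∀ i, E v i * conj (E v i) = 1 := fun i => by
          rw [Complex.mul_conj, Complex.normSq_eq_norm_sq, hE v hv i]; norm_num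
        simp only [h1, Finset.sum_const, Finset.card_univ, nsmul_eq_mul, mul_one]
        rw [Complex.mul_conj, Complex.normSq_eq_norm_sq]
        push_cast
        ring
      · exact fun w hw hne => by rw [horth v hv w hw (Ne.symm hne), mul_zero]
      · exact fun h => absurd hv h
    exact_mod_cast h
  rw [Finset.sum_congr rfl fun i _ => hG i, Finset.sum_sub_distrib, Finset.sum_add_distrib, h2,
    Finset.sum_const, Finset.card_univ, nsmul_eq_mul, mul_one, ← Finset.mul_sum]
  congr 2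
  rw [← Complex.re_sum]
  congr 1
  simp only [map_sum, map_mul, Finset.mul_sum]
  rw [Finset.sum_comm]
  exact Finset.sum_congr rfl fun v _ => Finset.sum_congr rfl fun i _ => by ring

/-- A full period does not depend on where it starts. -/
theorem sum_period {H : ℤ → ℂ} {N : ℕ} (h : ∀ z, H (z + N) = H z) (k : ℤ) :
    ∑ i ∈ Finset.range N, H (k + i) = ∑ i ∈ Finset.range N, H i := by
  have step : ∀ k : ℤ, ∑ i ∈ Finset.range N, H (k + 1 + i) = ∑ i ∈ Finset.range N, H (k + i) :=
    fun k => by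
    have e := (Finset.sum_range_succ (fun i : ℕ => H (k + i)) N).symm.trans
      (Finset.sum_range_succ' (fun i : ℕ => H (k + i)) N)
    rw [h, Nat.cast_zero, add_zero] at e
    refine (add_right_cancel e).trans ?_ |>.symm
    exact Finset.sum_congr rfl fun i _ => by push_cast; ring_nf
  induction k using Int.induction_on with
  | zero => simp
  | succ n ih => rw [step, ih]
  | pred n ih => rw [← ih, ← step (-(n : ℤ) - 1), sub_add_cancel]

variable (A k F : ℕ)

/-- The left end of the `r`-th cell. -/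
def cut (r : ℕ) : ℕ := F * (r * A * (2 * k + 1) + r * r)

/-- The number of grid points. -/
def size : ℕ := cut A k F A

theorem cut_mono : Monotone (cut A k F) := fun a b h => by
  unfold cut
  gcongr

/-- The value of the staircase at a grid point. -/
def lvl (i : ℕ) : ℕ := ((Finset.range (A - 1)).filter fun r => cut A k F (r + 1) ≤ i).card

theorem lvl_le (i : ℕ) : lvl A k F i ≤ A :=
  ((Finset.card_filter_le _ _).trans (Finset.card_range _).le).trans (Nat.sub_le A 1)

theorem lvl_eq {r i : ℕ} (hr : r < A) (h1 : cut A k F r ≤ i) (h2 : i < cut A k F (r + 1)) :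
    lvl A k F i = r := by
  rw [lvl, show (Finset.range (A - 1)).filter (fun r => cut A k F (r + 1) ≤ i) = Finset.range r from
    ?_, Finset.card_range]
  ext s
  simp only [Finset.mem_filter, Finset.mem_range]
  constructor
  · intro h
    by_contra h'
    have := cut_mono A k F (show r + 1 ≤ s + 1 by omega)
    omega
  · intro h
    have := cut_mono A k F (show s + 1 ≤ r by omega)
    omega

/-- The staircase. -/
def stair (x : ℝ) : ℕ := lvl A k F (⌊(size A k F : ℝ) * x⌋ % (size A k F : ℤ)).toNat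

/-- The discrete Fourier coefficient of a twist of the staircase. -/
def coef (v : ℤ) (ψ : ℝ) : ℂ :=
  (size A k F : ℂ)⁻¹ * ∑ i ∈ Finset.range (size A k F),
    ch (ψ * lvl A k F i - v * i / size A k F)

theorem coef_neg (v : ℤ) (ψ : ℝ) : coef A k F (-v) (1 - ψ) = conj (coef A k F v ψ) := by
  simp only [coef, map_mul, map_sum, map_inv₀, Complex.conj_natCast, conj_ch]
  congr 1
  refine Finset.sum_congr rfl fun i _ => ?_
  rw [← ch_add_int (-(ψ * lvl A k F i - v * i / size A k F)) (lvl A k F i)]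
  congr 1
  push_cast
  ring

variable {A k F}

theorem size_pos (hA : 0 < A) (hF : 0 < F) : 0 < size A k F := by
  unfold size cut; positivity

/-- Summation over the cells, and summation by parts. -/
theorem coef_bracket (hA : 0 < A) (hF : 0 < F) (v : ℤ) (ψ : ℝ) :
    (1 - ch (-(v : ℝ) / size A k F)) * ((size A k F : ℂ) * coef A k F v ψ) =
      (1 - ch (-ψ)) * ∑ r ∈ Finset.range A, ch (ψ * r - v * cut A k F r / size A k F) -
        ch (-ψ) * (ch (ψ * A) - 1) := by
  set N := size A k F with hN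
  have hN0 : (N : ℝ) ≠ 0 := Nat.cast_ne_zero.2 (size_pos hA hF).ne'
  set z := ch (-(v : ℝ) / N) with hz
  have hzp : ∀ i : ℕ, z ^ i = ch (-(v * i / N)) := fun i => by
    rw [hz, ch_pow]; congr 1; ring
  have hsplit : ∀ j ≤ A, ∑ i ∈ Finset.range (cut A k F j), ch (ψ * lvl A k F i - v * i / N) =
      ∑ r ∈ Finset.range j, ch (ψ * r) * ∑ i ∈ Finset.Ico (cut A k F r) (cut A k F (r + 1)), z ^ i := by
    intro j hj
    induction j with
    | zero => simp [cut]
    | succ r ih =>
      rw [← Finset.sum_range_add_sum_Ico _ (cut_mono A k F (Nat.le_succ r)), ih (by omega),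
        Finset.sum_range_succ]
      congr 1
      rw [Finset.mul_sum]
      refine Finset.sum_congr rfl fun i hi => ?_
      rw [lvl_eq A k F (by omega) (Finset.mem_Ico.1 hi).1 (Finset.mem_Ico.1 hi).2, hzp, ← ch_add,
        sub_eq_add_neg]
  have hco : (N : ℂ) * coef A k F v ψ =
      ∑ i ∈ Finset.range N, ch (ψ * lvl A k F i - v * i / N) := by
    rw [coef, ← hN, ← mul_assoc, mul_inv_cancel₀ (by exact_mod_cast (size_pos hA hF).ne'), one_mul]
  rw [hco, show Finset.range N = Finset.range (cut A k F A) from rfl, hsplit A le_rfl, Finset.mul_sum]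
  set g : ℕ → ℂ := fun r => ch (ψ * r - v * cut A k F r / N) with hg
  have hterm : ∀ r ∈ Finset.range A,
      (1 - z) * (ch (ψ * r) * ∑ i ∈ Finset.Ico (cut A k F r) (cut A k F (r + 1)), z ^ i) =
        g r - ch (-ψ) * g (r + 1) := by
    intro r _
    have := geom_sum_Ico_mul z (cut_mono A k F (Nat.le_succ r))
    rw [show (1 - z) * (ch (ψ * r) * ∑ i ∈ Finset.Ico (cut A k F r) (cut A k F (r + 1)), z ^ i) =
      -ch (ψ * r) * ((∑ i ∈ Finset.Ico (cut A k F r) (cut A k F (r + 1)), z ^ i) * (z - 1)) by ring,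
      this, hzp, hzp, hg]
    simp only [sub_eq_add_neg, ch_add]
    have : ch (-ψ) * ch (ψ * ((r + 1 : ℕ) : ℝ)) = ch (ψ * r) := by
      rw [← ch_add]; congr 1; push_cast; ring
    linear_combination (ch (-(v * cut A k F (r + 1) / N))) * this
  rw [Finset.sum_congr rfl hterm, Finset.sum_sub_distrib, ← Finset.mul_sum]
  have h0 : g 0 = 1 := by simp [hg, cut, ch_zero]
  have hend : g A = ch (ψ * A) := by
    simp only [hg]
    rw [show (cut A k F A : ℝ) = N from rfl, mul_div_assoc, div_self hN0, mul_one, ch_periodic]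
  have e := (Finset.sum_range_succ g A).symm.trans (Finset.sum_range_succ' g A)
  rw [h0, hend] at e
  linear_combination ch (-ψ) * e

/-- The coefficient is at least the stationary phase value. -/
theorem coef_lower (hA : 0 < A) (hF : 0 < F) {e T₀ : ℝ}
    (hT : ∀ (L : ℕ) (α γ : ℝ), 0 < α → T₀ ≤ α * (L : ℝ) ^ 2 → α * L ≤ 1 / 2 →
      e * (α * L) ≤ γ → γ ≤ (1 - e) * (α * L) →
      |α * ‖∑ t ∈ Finset.range L, ch (γ * t - α * (t : ℝ) ^ 2 / 2)‖ ^ 2 - 1| ≤ e)
    {v : ℤ} (hv : 0 < v) (ψ : ℝ) (q : ℤ) {x κ : ℝ} (hx : x = v / A) (hκ : κ = 1 / ((k : ℝ) + 1))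
    (h1 : κ * x ≤ 1 / 2) (h2 : T₀ ≤ κ * x * A) (h3 : |ψ + q - x| ≤ (1 / 2 - e) * (κ * x)) :
    (|Real.sin (π * ψ)| * Real.sqrt ((1 - e) * A / (κ * x)) - 1) / (π * v) ≤
      ‖coef A k F v ψ‖ := by
  have hA' : (0 : ℝ) < A := Nat.cast_pos.2 hA
  have hv' : (0 : ℝ) < v := Int.cast_pos.2 hv
  have hx0 : 0 < x := hx ▸ by positivity
  have hκ0 : 0 < κ := hκ ▸ by positivity
  have hN : (0 : ℝ) < size A k F := Nat.cast_pos.2 (size_pos hA hF)
  obtain ⟨hl, hr⟩ := abs_le.1 h3
  set γ := ψ + q - x * (1 - κ / 2)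
  set α := κ * x / A with hα
  have hαA : α * A = κ * x := by rw [hα]; field_simp
  have hc := hT A α γ (by positivity) (by rw [pow_two, ← mul_assoc, hαA]; exact h2)
    (hαA ▸ h1) (by rw [hαA]; simp only [γ]; linarith) (by rw [hαA]; simp only [γ]; linarith)
  have hS : ∑ r ∈ Finset.range A, ch (ψ * r - v * cut A k F r / size A k F) =
      ∑ t ∈ Finset.range A, ch (γ * t - α * (t : ℝ) ^ 2 / 2) := by
    refine Finset.sum_congr rfl fun r _ => ?_
    rw [← ch_add_int (ψ * r - v * cut A k F r / size A k F) (q * r)]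
    congr 1
    have hF' : (0 : ℝ) < F := Nat.cast_pos.2 hF
    simp only [γ, α, hx, hκ, size, cut]
    push_cast
    field_simp
    ring
  set S := ‖∑ t ∈ Finset.range A, ch (γ * t - α * (t : ℝ) ^ 2 / 2)‖
  have hS2 : (1 - e) * A / (κ * x) ≤ S ^ 2 := by
    have := (abs_le.1 hc).1
    rw [div_le_iff₀ (by positivity), ← hαA]
    nlinarith
  have hS1 : Real.sqrt ((1 - e) * A / (κ * x)) ≤ S :=
    (Real.sqrt_le_sqrt hS2).trans_eq (Real.sqrt_sq (norm_nonneg _))
  have hb := congrArg norm (coef_bracket (k := k) hA hF v ψ)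
  rw [hS, norm_mul, norm_mul, Complex.norm_natCast] at hb
  have hup : ‖1 - ch (-(v : ℝ) / size A k F)‖ * ((size A k F : ℝ) * ‖coef A k F v ψ‖) ≤
      2 * π * v * ‖coef A k F v ψ‖ := by
    have := norm_one_sub_ch_le (-(v : ℝ) / size A k F)
    rw [abs_div, abs_neg, abs_of_pos hv', abs_of_pos hN] at this
    refine (mul_le_mul_of_nonneg_right this (by positivity)).trans_eq ?_
    field_simp
  have hlow : 2 * |Real.sin (π * ψ)| * S - 2 ≤
      ‖(1 - ch (-ψ)) * ∑ t ∈ Finset.range A, ch (γ * t - α * (t : ℝ) ^ 2 / 2) -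
        ch (-ψ) * (ch (ψ * A) - 1)‖ := by
    refine le_trans ?_ (norm_sub_norm_le _ _)
    rw [norm_mul, norm_mul, norm_ch, one_mul, norm_one_sub_ch, mul_neg, Real.sin_neg, abs_neg]
    have : ‖ch (ψ * A) - 1‖ ≤ 2 := (norm_sub_le _ _).trans (by rw [norm_ch, norm_one]; norm_num)
    linarith
  rw [← hb] at hlow
  rw [div_le_iff₀ (by positivity)]
  nlinarith [mul_le_mul_of_nonneg_left hS1 (abs_nonneg (Real.sin (π * ψ))), hlow.trans hup]

/-- The mean square error over the translates of the grid. -/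
theorem grid_err (hA : 0 < A) (hF : 0 < F) (s : Finset ℤ) (ψ x : ℝ)
    (hs : ∀ v ∈ s, ∀ w ∈ s, v ≠ w → |((v - w : ℤ) : ℝ)| < size A k F) :
    ∃ t ∈ Set.Ico (0 : ℝ) 1, ∀ γ : ℤ → ℂ,
      ∑ i : Fin (size A k F), ‖ch (ψ * stair A k F (x + (i : ℕ) / size A k F)) -
          ∑ v ∈ s, γ v * ch (v * (x + (i : ℕ) / size A k F))‖ ^ 2 =
        size A k F * (1 + ∑ v ∈ s, ‖γ v‖ ^ 2 -
          2 * ∑ v ∈ s, (conj (γ v) * coef A k F v ψ * ch (-(v * t / size A k F))).re) := by
  set N := size A k F with hN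
  have hNp : 0 < N := size_pos hA hF
  have hN0 : (0 : ℝ) < N := Nat.cast_pos.2 hNp
  set t := Int.fract ((N : ℝ) * x) with ht
  refine ⟨t, ⟨Int.fract_nonneg _, Int.fract_lt_one _⟩, fun γ => ?_⟩
  set n0 := ⌊(N : ℝ) * x⌋ with hn0
  have hx : x = (n0 + t) / N := by
    rw [hn0, ht, Int.floor_add_fract]; field_simp
  rw [sq_err s _ (fun v (i : Fin N) => ch (v * (x + (i : ℕ) / N))) γ (fun i => norm_ch _) ?_
    (fun v _ i => norm_ch _)]
  · rw [Fintype.card_fin, Complex.re_sum, mul_sub, mul_add, mul_one, ← mul_assoc (N : ℝ) 2,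
      mul_comm (N : ℝ) 2, mul_assoc 2 (N : ℝ), Finset.mul_sum (a := (N : ℝ))]
    congr 1
    rw [Finset.mul_sum (a := (N : ℝ))]
    refine congrArg (fun r : ℝ => 2 * r) ?_
    refine Finset.sum_congr rfl fun v _ => ?_
    set H : ℤ → ℂ := fun z => ch (ψ * lvl A k F (z % (N : ℤ)).toNat - v * z / N)
    have hH : ∀ z, H (z + N) = H z := fun z => by
      simp only [H, Int.add_emod_right]
      rw [← ch_periodic (ψ * lvl A k F (z % (N : ℤ)).toNat - v * z / N) v]
      congr 1
      push_cast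
      field_simp
      ring
    have hterm : ∀ i : ℕ, ch (ψ * stair A k F (x + i / N)) * conj (ch (v * (x + i / N))) =
        ch (-(v * t / N)) * H (n0 + i) := by
      intro i
      have hfl : ⌊(N : ℝ) * (x + i / N)⌋ = n0 + i := by
        rw [mul_add, mul_div_cancel₀ _ hN0.ne', hn0, Int.floor_add_natCast]
      rw [conj_ch, ← ch_add, ← ch_add, stair, ← hN, hfl, hx]
      congr 1
      push_cast
      field_simp
      ring
    rw [Fin.sum_univ_eq_sum_range (fun i => ch (ψ * stair A k F (x + i / N)) *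
      conj (ch (v * (x + i / N)))) N, Finset.sum_congr rfl fun i _ => hterm i, ← Finset.mul_sum,
      sum_period hH]
    have : ∑ i ∈ Finset.range N, H i = (N : ℂ) * coef A k F v ψ := by
      rw [coef, ← hN, ← mul_assoc, mul_inv_cancel₀ (by exact_mod_cast hNp.ne'), one_mul]
      refine Finset.sum_congr rfl fun i hi => ?_
      simp only [H]
      rw [Int.emod_eq_of_lt (Int.natCast_nonneg i) (by exact_mod_cast Finset.mem_range.1 hi),
        Int.toNat_natCast]
      push_cast
      rfl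
    rw [this, ← Complex.re_ofReal_mul]
    congr 1
    push_cast
    ring
  · intro v hv w hw hne
    have hterm : ∀ i : ℕ, ch (v * (x + i / N)) * conj (ch (w * (x + i / N))) =
        ch (((v - w : ℤ) : ℝ) * x) * ch (((v - w : ℤ) : ℝ) / N) ^ i := fun i => by
      rw [conj_ch, ← ch_add, ch_pow, ← ch_add]
      congr 1
      push_cast
      ring
    rw [Fin.sum_univ_eq_sum_range (fun i => ch (v * (x + i / N)) * conj (ch (w * (x + i / N)))) N,
      Finset.sum_congr rfl fun i _ => hterm i, ← Finset.mul_sum]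
    have hd : ((v - w : ℤ) : ℝ) / N ≠ 0 :=
      div_ne_zero (by exact_mod_cast sub_ne_zero.2 hne) hN0.ne'
    have h1 : ch (((v - w : ℤ) : ℝ) / N) ≠ 1 := ch_ne_one hd (by
      rw [abs_div, abs_of_pos hN0, div_lt_one hN0]; exact hs v hv w hw hne)
    rw [geom_sum_eq h1, ch_pow, mul_div_cancel₀ _ hN0.ne', ch_int]
    simp

/-- Translates of the grid separate the frequencies. -/
theorem grid_orth (hA : 0 < A) (hF : 0 < F) {d : ℤ} (hd : d ≠ 0)
    (hlt : |(d : ℝ)| < size A k F) :
    ∑ i : Fin (size A k F), ch (d * ((i : ℕ) / size A k F)) = 0 := by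
  have hN0 : (0 : ℝ) < size A k F := Nat.cast_pos.2 (size_pos hA hF)
  have e : ∀ i : ℕ, ch (d * (i / size A k F)) = ch ((d : ℝ) / size A k F) ^ i := fun i => by
    rw [ch_pow]; congr 1; ring
  rw [Fin.sum_univ_eq_sum_range (fun i => ch (d * (i / size A k F))) (size A k F),
    Finset.sum_congr rfl fun i _ => e i,
    geom_sum_eq (ch_ne_one (div_ne_zero (by exact_mod_cast hd) hN0.ne')
      (by rw [abs_div, abs_of_pos hN0, div_lt_one hN0]; exact hlt)),
    ch_pow, mul_div_cancel₀ _ hN0.ne', ch_int]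
  simp

end Vale.Agent.P130.Full.Core.Profile
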