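import Vale.Agent.P110.Full.Main
import Vale.Agent.P130.Full.Core.Statements

/-!
Profile: elementary facts about characters, and the partial sums of `sin² / (π² (ψ + n)²)`.
-/

noncomputable section

namespace Vale.Agent.P130.Full.Core.Profile

open Finset Real MeasureTheory
open Vale.Agent.P110.Full (ch ch_add conj_ch norm_ch ch_pow)
open scoped ComplexConjugate

theorem ch_zero : ch 0 = 1 := by simp [ch]

theorem ch_int (n : ℤ) : ch n = 1 := by
  rw [ch, Complex.exp_eq_one_iff]
  exact ⟨n, by push_cast; ring⟩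

theorem ch_add_int (t : ℝ) (n : ℤ) : ch (t + n) = ch t := by
  rw [ch_add, ch_int, mul_one]

theorem ch_periodic (t : ℝ) (n : ℤ) : ch (t - n) = ch t := by
  rw [sub_eq_add_neg, ← Int.cast_neg, ch_add_int]

theorem norm_one_sub_ch (t : ℝ) : ‖1 - ch t‖ = 2 * |Real.sin (π * t)| := by
  rw [norm_sub_rev, ch, mul_comm, Complex.norm_exp_I_mul_ofReal_sub_one, Real.norm_eq_abs, abs_mul,
    show 2 * π * t / 2 = π * t by ring]
  norm_num

theorem norm_one_sub_ch_le (t : ℝ) : ‖1 - ch t‖ ≤ 2 * π * |t| := by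
  rw [norm_one_sub_ch]
  have := Real.abs_sin_le_abs (x := π * t)
  rw [abs_mul, abs_of_pos Real.pi_pos] at this
  linarith

theorem ch_ne_one {t : ℝ} (h0 : t ≠ 0) (h1 : |t| < 1) : ch t ≠ 1 := by
  intro h
  rw [ch, Complex.exp_eq_one_iff] at h
  obtain ⟨n, hn⟩ := h
  have h2 := congrArg Complex.im hn
  simp at h2
  have h3 : t = n := by nlinarith [Real.pi_pos]
  rw [h3] at h1 h0
  have : |n| < 1 := by exact_mod_cast h1
  exact h0 (by simp [Int.abs_lt_one_iff.1 this])

/-- One Fourier coefficient of `t ↦ ch (a t)`. -/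
theorem integral_ch (a : ℝ) (ha : a ≠ 0) :
    ∫ t in (0 : ℝ)..1, ch (a * t) = (ch a - 1) / ((2 * π * a : ℝ) * Complex.I) := by
  have hc : ((2 * π * a : ℝ) : ℂ) * Complex.I ≠ 0 :=
    mul_ne_zero (by exact_mod_cast (by positivity : (2 * π * a : ℝ) ≠ 0)) Complex.I_ne_zero
  have e : ∀ t : ℝ, ch (a * t) = Complex.exp (((2 * π * a : ℝ) : ℂ) * Complex.I * t) := by
    intro t
    rw [ch]
    push_cast
    ring_nf
  simp only [e, integral_exp_mul_complex hc]
  rw [ch]
  simp

/-- The weights of all translates of `ψ` sum to one. -/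
theorem sinc_sq_sum {ψ : ℝ} (h0 : 0 < ψ) (h1 : ψ < 1) {N : ℕ} (hN : 2 ≤ N) :
    1 - 1 / ((N : ℝ) - 1) ≤ ∑ q ∈ Finset.range N, (Real.sin (π * ψ) ^ 2 / (π * (ψ + q)) ^ 2 +
      Real.sin (π * ψ) ^ 2 / (π * (1 - ψ + q)) ^ 2) := by
  set s := Real.sin (π * ψ) ^ 2 with hs
  set a : ℕ → ℝ := fun q => s / (π * (ψ + q)) ^ 2 + s / (π * (1 - ψ + q)) ^ 2 with ha
  have ha0 : ∀ q, 0 ≤ a q := fun q => by positivity
  have hcont : Continuous fun t : ℝ => ch (ψ * t) := by unfold ch; fun_prop
  have hL2 : MemLp (fun t : ℝ => ch (ψ * t)) 2 (volume.restrict (Set.Ioc 0 1)) :=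
    MemLp.of_bound hcont.aestronglyMeasurable 1 (ae_of_all _ fun t => (norm_ch _).le)
  have hsum := hasSum_sq_fourierCoeffOn zero_lt_one hL2
  simp only [sub_zero, inv_one, one_smul, norm_ch, one_pow, intervalIntegral.integral_const,
    mul_one] at hsum
  have hc : ∀ n : ℤ, ‖fourierCoeffOn zero_lt_one (fun t : ℝ => ch (ψ * t)) n‖ ^ 2 =
      s / (π * (ψ - n)) ^ 2 := by
    intro n
    have hne : ψ - n ≠ 0 := by
      intro h
      have : (n : ℝ) = ψ := by linarith
      rcases le_or_gt n 0 with h' | h'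
      · have : (n : ℝ) ≤ 0 := by exact_mod_cast h'
        linarith
      · have : (1 : ℝ) ≤ n := by exact_mod_cast h'
        linarith
    rw [fourierCoeffOn_eq_integral]
    have e : ∀ t : ℝ, fourier (-n) (t : AddCircle ((1 : ℝ) - 0)) • ch (ψ * t) =
        ch ((ψ - n) * t) := fun t => by
      rw [fourier_coe_apply, smul_eq_mul, show (ψ - n) * t = -(n * t) + ψ * t by ring, ch_add]
      congr 1
      rw [ch]
      congr 1
      push_cast
      ring
    simp only [e, integral_ch _ hne, sub_zero, div_one, one_smul]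
    rw [norm_div, norm_sub_rev, norm_one_sub_ch, norm_mul, Complex.norm_I, mul_one,
      Complex.norm_real, Real.norm_eq_abs, hs, div_pow, sq_abs]
    have hsin : Real.sin (π * (ψ - n)) ^ 2 = Real.sin (π * ψ) ^ 2 := by
      rw [show π * (ψ - n) = π * ψ + ((-n : ℤ) : ℝ) * π by push_cast; ring,
        Real.sin_add_int_mul_pi, mul_pow]
      rcases Int.even_or_odd (-n) with he | ho
      · rw [he.neg_one_zpow]; ring
      · rw [ho.neg_one_zpow]; ring
    rw [mul_pow 2 (|Real.sin (π * (ψ - n))|), sq_abs, hsin, mul_pow, mul_pow, mul_pow]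
    field_simp
  simp only [hc] at hsum
  have key : 1 ≤ ∑ q ∈ Finset.range N, a q + 1 / ((N : ℝ) - 1) := by
    refine hasSum_le_of_sum_le hsum fun u => ?_
    set M := max N (u.sup Int.natAbs + 2) with hM
    have hsub : u ⊆ ((Finset.range M).image fun q : ℕ => -(q : ℤ)) ∪
        ((Finset.range M).image fun q : ℕ => (q : ℤ) + 1) := by
      intro n hn
      have hle : n.natAbs ≤ u.sup Int.natAbs := Finset.le_sup hn
      have hMu : u.sup Int.natAbs + 2 ≤ M := le_max_right _ _
      rcases le_or_gt n 0 with h' | h'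
      · exact Finset.mem_union_left _ (Finset.mem_image.2
          ⟨n.natAbs, Finset.mem_range.2 (by omega), by omega⟩)
      · exact Finset.mem_union_right _ (Finset.mem_image.2
          ⟨n.natAbs - 1, Finset.mem_range.2 (by omega), by omega⟩)
    refine (Finset.sum_le_sum_of_subset_of_nonneg hsub fun _ _ _ => by positivity).trans ?_
    rw [Finset.sum_union (Finset.disjoint_left.2 fun n hn hn' => by
      obtain ⟨q, -, rfl⟩ := Finset.mem_image.1 hn
      obtain ⟨q', -, h⟩ := Finset.mem_image.1 hn'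
      omega), Finset.sum_image (fun x _ y _ h => by simpa using h),
      Finset.sum_image (fun x _ y _ h => by simpa using h), ← Finset.sum_add_distrib]
    have e : ∀ q : ℕ, s / (π * (ψ - ((-(q : ℤ) : ℤ) : ℝ))) ^ 2 +
        s / (π * (ψ - (((q : ℤ) + 1 : ℤ) : ℝ))) ^ 2 = a q := fun q => by
      simp only [ha]
      push_cast
      ring
    simp only [e]
    rw [← Finset.sum_range_add_sum_Ico _ (le_max_left N (u.sup Int.natAbs + 2))]
    refine add_le_add le_rfl ?_
    have tail : ∀ q ∈ Finset.Ico N M, a q ≤ 1 / ((q : ℝ) - 1) - 1 / q := by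
      intro q hq
      have hq2 : (2 : ℝ) ≤ q := by exact_mod_cast hN.trans (Finset.mem_Ico.1 hq).1
      have hs1 : s ≤ 1 := Real.sin_sq_le_one _
      have hpi : 9 ≤ π ^ 2 := by nlinarith [Real.pi_gt_three]
      have hb : ∀ c : ℝ, 0 ≤ c → s / (π * (c + q)) ^ 2 ≤ 1 / (9 * (q : ℝ) ^ 2) := fun c hc' => by
        refine div_le_div₀ zero_le_one hs1 (by positivity) ?_
        rw [mul_pow]
        exact mul_le_mul hpi (pow_le_pow_left₀ (by linarith) (by linarith) 2) (by positivity)
          (by positivity)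
      have h := add_le_add (hb ψ h0.le) (hb (1 - ψ) (by linarith))
      refine h.trans ?_
      rw [div_sub_div _ _ (by linarith) (by linarith), div_add_div _ _ (by positivity) (by positivity),
        div_le_div_iff₀ (by positivity) (by nlinarith)]
      nlinarith [mul_pos (show (0 : ℝ) < q by linarith) (show (0 : ℝ) < q by linarith),
        pow_le_pow_left₀ (by norm_num) hq2 3]
    refine (Finset.sum_le_sum tail).trans ?_
    have hNM : N ≤ M := le_max_left _ _
    clear_value M
    induction M, hNM using Nat.le_induction with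
    | base => simp; linarith [show (2 : ℝ) ≤ N by exact_mod_cast hN]
    | succ m hm _ =>
      have : ∀ m : ℕ, N ≤ m → ∑ q ∈ Finset.Ico N m, (1 / ((q : ℝ) - 1) - 1 / q) =
          1 / ((N : ℝ) - 1) - 1 / ((m : ℝ) - 1) := by
        intro m hm
        induction m, hm using Nat.le_induction with
        | base => simp
        | succ k hk ih => rw [Finset.sum_Ico_succ_top hk, ih]; push_cast; ring
      rw [this (m + 1) (by omega)]
      have : (0 : ℝ) ≤ 1 / (((m + 1 : ℕ) : ℝ) - 1) :=
        div_nonneg zero_le_one (by push_cast; linarith [(Nat.cast_nonneg m : (0 : ℝ) ≤ m)])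
      linarith
  linarith

end Vale.Agent.P130.Full.Core.Profile
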