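import Vale.Agent.P130.Full.Core.Profile.Grid

/-!
Profile: weights, activity intervals, and their sums.
-/

noncomputable section

namespace Vale.Agent.P130.Full.Core.Profile

open Finset Real
open Vale.Agent.P110.Full (ch)

theorem two_mul_le_sin {f d : ℝ} (hd : 0 ≤ d) (h1 : d ≤ f) (h2 : f ≤ 1 - d) :
    2 * d ≤ Real.sin (π * f) := by
  have hpi := Real.pi_pos
  rcases le_total f (1 / 2) with h | h
  · have := Real.mul_le_sin (x := π * f) (by nlinarith) (by nlinarith)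
    rw [show 2 / π * (π * f) = 2 * f by field_simp] at this
    linarith
  · have := Real.mul_le_sin (x := π * (1 - f)) (by nlinarith) (by nlinarith)
    rw [show 2 / π * (π * (1 - f)) = 2 * (1 - f) by field_simp,
      show π * (1 - f) = π - π * f by ring, Real.sin_pi_sub] at this
    linarith

theorem abs_sin_shift (x : ℝ) (n : ℤ) : |Real.sin (π * (x + n))| = |Real.sin (π * x)| := by
  rw [mul_add, mul_comm π (n : ℝ), Real.sin_add_int_mul_pi, abs_mul, abs_zpow]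
  simp

theorem abs_sin_diff (x y : ℝ) : |Real.sin (π * x)| - π * |x - y| ≤ |Real.sin (π * y)| := by
  have h1 := Real.abs_sin_sub_sin_le (π * x) (π * y)
  rw [← mul_sub, abs_mul, abs_of_pos Real.pi_pos] at h1
  linarith [abs_sub_abs_le_abs_sub (Real.sin (π * x)) (Real.sin (π * y))]

/-- The parameters of the profile. -/
structure Par where
  A : ℕ
  k : ℕ
  F : ℕ
  N0 : ℕ
  e : ℝ
  δ : ℝ
  A_pos : 0 < A
  F_pos : 0 < F
  e_pos : 0 < e
  e_small : e ≤ 1 / 200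
  δ_pos : 0 < δ
  δ_small : δ ≤ 1 / 4
  N0_two : 2 ≤ N0
  N0_tail : 1 / ((N0 : ℝ) - 1) ≤ e
  k_big : 2 * (1 / ((k : ℝ) + 1)) * N0 ≤ e * δ
  A_sq : 1 / ((k : ℝ) + 1) * N0 ≤ (e * δ) ^ 2 * A
  A_len : 1 ≤ e * (1 / ((k : ℝ) + 1)) * A * δ
  A_div : 4 * N0 * ((k : ℝ) + 1) / (δ ^ 3 * A) ≤ 1 / 10
  A_div' : (4 * N0 * ((k : ℝ) + 1) / (δ ^ 3 * A)) ^ 2 * (N0 * A) ≤ 1 / 8
  F_big : 16 * (N0 * A : ℕ) ≤ e * size A k F
  T₀ : ℝ
  chirp : ∀ (L : ℕ) (α γ : ℝ), 0 < α → T₀ ≤ α * (L : ℝ) ^ 2 → α * L ≤ 1 / 2 →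
    e * (α * L) ≤ γ → γ ≤ (1 - e) * (α * L) →
    |α * ‖∑ t ∈ Finset.range L, ch (γ * t - α * (t : ℝ) ^ 2 / 2)‖ ^ 2 - 1| ≤ e
  T_le : T₀ ≤ 1 / ((k : ℝ) + 1) * (δ / 2) * A

namespace Par

variable (P : Par)

/-- The relative width of the band. -/
def κ : ℝ := 1 / ((P.k : ℝ) + 1)

/-- Half the relative width of an activity interval. -/
def b : ℝ := P.κ * (1 / 2 - P.e)

/-- The position of a frequency. -/
def pt (v : ℤ) : ℝ := v / P.A

/-- The weight of a frequency. -/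
def pw (v : ℤ) : ℝ :=
  (1 - 3 * P.e) ^ 2 * Real.sin (π * P.pt v) ^ 2 / (π ^ 2 * |P.pt v| ^ 3 * P.κ * P.A)

/-- The positive frequencies. -/
def Vp : Finset ℤ :=
  (Finset.Icc (1 : ℤ) ((P.N0 * P.A : ℕ) : ℤ)).filter fun v =>
    P.δ / 2 ≤ Int.fract (P.pt v) ∧ Int.fract (P.pt v) ≤ 1 - P.δ / 2

/-- All frequencies. -/
def V : Finset ℤ := P.Vp ∪ P.Vp.image fun v => -v

/-- Left ends of the activity intervals of the positive frequencies. -/
def lo' (v : ℤ) : ℝ := P.pt v * (1 - P.b) - ⌊P.pt v⌋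

/-- Right ends of the activity intervals of the positive frequencies. -/
def hi' (v : ℤ) : ℝ := P.pt v * (1 + P.b) - ⌊P.pt v⌋

/-- Left ends of the activity intervals. -/
def lo (v : ℤ) : ℝ := if 0 < v then P.lo' v else 1 - P.hi' (-v)

/-- Right ends of the activity intervals. -/
def hi (v : ℤ) : ℝ := if 0 < v then P.hi' v else 1 - P.lo' (-v)

/-- The positive frequencies active at `ψ`. -/
def pos (ψ : ℝ) : Finset ℤ := P.Vp.filter fun v => P.lo' v ≤ ψ ∧ ψ ≤ P.hi' v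

theorem κ_pos : 0 < P.κ := by unfold Par.κ; positivity

theorem A_pos' : (0 : ℝ) < P.A := Nat.cast_pos.2 P.A_pos

theorem N0_pos : (2 : ℝ) ≤ P.N0 := by exact_mod_cast P.N0_two

theorem κ_le : P.κ ≤ P.e * P.δ / 4 := by
  have h : 2 * P.κ * P.N0 ≤ P.e * P.δ := P.k_big
  nlinarith [P.κ_pos, P.N0_pos]

theorem b_bounds : 0 ≤ P.b ∧ P.b ≤ P.e ∧ P.b ≤ P.κ / 2 := by
  have h1 := P.κ_pos
  have h2 := P.e_pos
  have h3 := P.e_small
  have h4 := P.κ_le
  have h5 := P.δ_small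
  have h6 := mul_le_mul_of_nonneg_left h5 h2.le
  refine ⟨mul_nonneg h1.le (by linarith), ?_, ?_⟩
  · have : P.b ≤ P.κ := mul_le_of_le_one_right h1.le (by linarith)
    linarith
  · have := mul_le_mul_of_nonneg_left (show 1 / 2 - P.e ≤ 1 / 2 by linarith) h1.le
    simp only [Par.b]
    linarith

theorem mem_Vp {v : ℤ} (hv : v ∈ P.Vp) : 0 < v ∧ v ≤ ((P.N0 * P.A : ℕ) : ℤ) ∧
    P.δ / 2 ≤ P.pt v ∧ P.pt v ≤ P.N0 ∧ P.δ / 2 ≤ Int.fract (P.pt v) ∧
    Int.fract (P.pt v) ≤ 1 - P.δ / 2 ∧ P.b * P.pt v ≤ P.δ / 4 ∧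
    P.δ ≤ |Real.sin (π * P.pt v)| ∧ π * (P.b * P.pt v) ≤ P.e * P.δ := by
  obtain ⟨hI, h1, h2⟩ := Finset.mem_filter.1 hv
  obtain ⟨hv1, hv2⟩ := Finset.mem_Icc.1 hI
  have hA := P.A_pos'
  have hv0 : (0 : ℝ) < v := Int.cast_pos.2 (by omega)
  have hpt : 0 < P.pt v := div_pos hv0 hA
  have hle : P.pt v ≤ P.N0 := by
    have : (v : ℝ) ≤ (P.N0 : ℝ) * P.A := by exact_mod_cast hv2
    exact (div_le_iff₀ hA).2 this
  have hfr : Int.fract (P.pt v) ≤ P.pt v := by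
    rw [Int.fract]
    have : (0 : ℝ) ≤ ⌊P.pt v⌋ := by exact_mod_cast Int.floor_nonneg.2 hpt.le
    linarith
  have hb : P.b * P.pt v ≤ P.e * P.δ / 4 := by
    have h1 := mul_le_mul P.b_bounds.2.2 hle hpt.le (by linarith [P.κ_pos])
    have h2 : 2 * P.κ * P.N0 ≤ P.e * P.δ := P.k_big
    linarith
  refine ⟨by omega, hv2, h1.trans hfr, hle, h1, h2, hb.trans ?_, ?_, ?_⟩
  · have := mul_le_mul_of_nonneg_right P.e_small P.δ_pos.le
    linarith [P.δ_pos]
  · have := two_mul_le_sin (by linarith [P.δ_pos]) h1 h2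
    rw [← Int.fract_add_floor (P.pt v), abs_sin_shift]
    linarith [le_abs_self (Real.sin (π * Int.fract (P.pt v)))]
  · have := mul_le_mul_of_nonneg_left hb Real.pi_pos.le
    nlinarith [Real.pi_lt_four, mul_pos P.e_pos P.δ_pos]

theorem pw_pos {v : ℤ} (hv : v ∈ P.Vp) : 0 < P.pw v := by
  obtain ⟨-, -, h1, -, -, -, -, h3, -⟩ := P.mem_Vp hv
  have := P.δ_pos
  have := P.A_pos'
  have := P.κ_pos
  have : 0 < |P.pt v| := abs_pos.2 (by linarith)
  have : 0 < (1 - 3 * P.e) ^ 2 := pow_pos (by linarith [P.e_small]) 2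
  have : 0 < Real.sin (π * P.pt v) ^ 2 := by rw [← sq_abs]; exact pow_pos (by linarith) 2
  unfold Par.pw
  positivity

theorem pw_neg (v : ℤ) : P.pw (-v) = P.pw v := by
  unfold Par.pw Par.pt
  push_cast
  rw [neg_div, abs_neg, mul_neg, Real.sin_neg, neg_sq]

theorem active_eq (ψ : ℝ) :
    active P.V P.lo P.hi ψ = P.pos ψ ∪ (P.pos (1 - ψ)).image fun v => -v := by
  ext v
  simp only [active, Par.V, Par.pos, Finset.mem_filter, Finset.mem_union, Finset.mem_image]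
  constructor
  · rintro ⟨hv | ⟨u, hu, rfl⟩, h1, h2⟩
    · left
      have := (P.mem_Vp hv).1
      simp only [Par.lo, Par.hi, if_pos this] at h1 h2
      exact ⟨hv, h1, h2⟩
    · right
      have hu0 := (P.mem_Vp hu).1
      simp only [Par.lo, Par.hi, if_neg (show ¬ (0 : ℤ) < -u by omega), neg_neg] at h1 h2
      exact ⟨u, ⟨hu, by linarith, by linarith⟩, rfl⟩
  · rintro (⟨hv, h1, h2⟩ | ⟨u, ⟨hu, h1, h2⟩, rfl⟩)
    · have := (P.mem_Vp hv).1
      simp only [Par.lo, Par.hi, if_pos this]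
      exact ⟨Or.inl hv, h1, h2⟩
    · have hu0 := (P.mem_Vp hu).1
      simp only [Par.lo, Par.hi, if_neg (show ¬ (0 : ℤ) < -u by omega), neg_neg]
      exact ⟨Or.inr ⟨u, hu, rfl⟩, by linarith, by linarith⟩

theorem sum_active (f : ℤ → ℝ) (ψ : ℝ) :
    ∑ v ∈ active P.V P.lo P.hi ψ, f v = ∑ v ∈ P.pos ψ, f v + ∑ v ∈ P.pos (1 - ψ), f (-v) := by
  rw [P.active_eq, Finset.sum_union, Finset.sum_image fun x _ y _ h => neg_injective h]
  refine Finset.disjoint_left.2 fun v h1 h2 => ?_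
  obtain ⟨u, hu, rfl⟩ := Finset.mem_image.1 h2
  have := (P.mem_Vp (Finset.mem_filter.1 h1).1).1
  have := (P.mem_Vp (Finset.mem_filter.1 hu).1).1
  omega

theorem coef_ge_pos {ψ : ℝ} {v : ℤ} (hv : v ∈ P.pos ψ) :
    P.pw v ≤ ‖coef P.A P.k P.F v ψ‖ ^ 2 := by
  obtain ⟨hvp, h1, h2⟩ := Finset.mem_filter.1 hv
  obtain ⟨hv0, -, hx1, hx2, -, -, -, hs, hbe⟩ := P.mem_Vp hvp
  have hA := P.A_pos'
  have hκ := P.κ_pos
  have hd := P.δ_pos
  have he := P.e_pos
  set x := P.pt v with hx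
  have hx0 : 0 < x := by linarith
  have hq : |ψ + ⌊x⌋ - x| ≤ P.b * x := by
    simp only [Par.lo', Par.hi', ← hx] at h1 h2
    exact abs_le.2 ⟨by linarith, by linarith⟩
  have h3 : |ψ + ⌊x⌋ - x| ≤ (1 / 2 - P.e) * (P.κ * x) := by
    refine hq.trans_eq ?_
    simp only [Par.b]; ring
  have hκx : P.κ * x ≤ P.κ * P.N0 := mul_le_mul_of_nonneg_left hx2 hκ.le
  have hk : 2 * P.κ * P.N0 ≤ P.e * P.δ := P.k_big
  have hlow := coef_lower (k := P.k) P.A_pos P.F_pos P.chirp hv0 ψ ⌊x⌋ (x := x) (κ := P.κ) rfl rfl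
    (by nlinarith [P.e_small, P.δ_small]) (P.T_le.trans (mul_le_mul_of_nonneg_right
      (mul_le_mul_of_nonneg_left hx1 hκ.le) hA.le)) h3
  set s := |Real.sin (π * x)| with hs'
  set s' := |Real.sin (π * ψ)| with hs''
  have hss : (1 - P.e) * s ≤ s' := by
    have h4 := abs_sin_diff x (ψ + ⌊x⌋)
    rw [abs_sin_shift, abs_sub_comm, ← hs'] at h4
    have h5 := mul_le_mul_of_nonneg_left hq Real.pi_pos.le
    have h6 := mul_le_mul_of_nonneg_left hs he.le
    linarith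
  set Q := Real.sqrt (P.A / (P.κ * x)) with hQ
  have hQ0 : 0 ≤ Q := Real.sqrt_nonneg _
  have hQe : 1 ≤ P.e * s * Q := by
    have h6 : (1 : ℝ) / (P.e * P.δ) ≤ Q := by
      refine Real.le_sqrt_of_sq_le ?_
      rw [div_pow, one_pow, div_le_div_iff₀ (by positivity) (by positivity), one_mul]
      linarith [P.A_sq, hκx, show P.κ * P.N0 = 1 / ((P.k : ℝ) + 1) * P.N0 from rfl]
    rw [div_le_iff₀ (by positivity)] at h6
    nlinarith [mul_le_mul_of_nonneg_left hs (mul_nonneg he.le hQ0)]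
  have hQ' : (1 - P.e) * Q ≤ Real.sqrt ((1 - P.e) * P.A / (P.κ * x)) := by
    rw [mul_div_assoc, Real.sqrt_mul (by linarith [P.e_small])]
    refine mul_le_mul_of_nonneg_right ?_ hQ0
    exact Real.le_sqrt_of_sq_le (by nlinarith [P.e_small])
  have hnum : (1 - 3 * P.e) * s * Q ≤ s' * Real.sqrt ((1 - P.e) * P.A / (P.κ * x)) - 1 := by
    have h7 := mul_le_mul hss hQ' (mul_nonneg (by linarith [P.e_small]) hQ0) (abs_nonneg _)
    have : 0 ≤ P.e ^ 2 * s * Q := by positivity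
    linarith
  have hv' : (0 : ℝ) < v := Int.cast_pos.2 hv0
  have hfin : (1 - 3 * P.e) * s * Q / (π * v) ≤ ‖coef P.A P.k P.F v ψ‖ :=
    (div_le_div_of_nonneg_right hnum (by positivity)).trans hlow
  refine le_trans (le_of_eq ?_) (pow_le_pow_left₀
    (div_nonneg (mul_nonneg (mul_nonneg (by linarith [P.e_small]) (abs_nonneg _)) hQ0)
      (by positivity)) hfin 2)
  rw [div_pow, mul_pow, mul_pow, mul_pow, hQ, Real.sq_sqrt (by positivity), hs', sq_abs, Par.pw,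
    ← hx, abs_of_pos hx0, show (v : ℝ) = x * P.A by rw [hx, Par.pt]; field_simp]
  field_simp

theorem coef_ge {ψ : ℝ} {v : ℤ} (hv : v ∈ active P.V P.lo P.hi ψ) :
    P.pw v ≤ ‖coef P.A P.k P.F v ψ‖ ^ 2 ∧ 0 < P.pw v ∧ |(v : ℝ)| ≤ (P.N0 * P.A : ℕ) := by
  rw [P.active_eq] at hv
  rcases Finset.mem_union.1 hv with hv | hv
  · have hp := (Finset.mem_filter.1 hv).1
    obtain ⟨h0, h1, -⟩ := P.mem_Vp hp
    refine ⟨P.coef_ge_pos hv, P.pw_pos hp, ?_⟩
    rw [abs_of_pos (Int.cast_pos.2 h0)]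
    exact_mod_cast h1
  · obtain ⟨u, hu, rfl⟩ := Finset.mem_image.1 hv
    have hp := (Finset.mem_filter.1 hu).1
    obtain ⟨h0, h1, -⟩ := P.mem_Vp hp
    refine ⟨?_, by rw [pw_neg]; exact P.pw_pos hp, ?_⟩
    · have h := P.coef_ge_pos hu
      rw [pw_neg, show ψ = 1 - (1 - ψ) by ring, coef_neg, Complex.norm_conj]
      exact h
    · rw [Int.cast_neg, abs_neg, abs_of_pos (Int.cast_pos.2 h0)]
      exact_mod_cast h1

/-- The scale of the weights near `ψ + q`. -/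
def scale (ψ : ℝ) (q : ℕ) : ℝ :=
  (1 - 3 * P.e) ^ 2 * Real.sin (π * ψ) ^ 2 / (π ^ 2 * (ψ + q) ^ 3 * P.κ * P.A)

/-- The positive frequencies active at `ψ` near `ψ + q`. -/
def block (ψ : ℝ) (q : ℕ) : Finset ℤ :=
  Finset.Icc ⌈P.A * (ψ + q) / (1 + P.b)⌉ ⌊P.A * (ψ + q) / (1 - P.b)⌋

variable {ψ : ℝ}

theorem mem_block (hψ : ψ ∈ Set.Icc P.δ (1 - P.δ)) {q : ℕ} (hq : q < P.N0) {v : ℤ}
    (hv : v ∈ P.block ψ q) : v ∈ P.pos ψ ∧ ⌊P.pt v⌋ = (q : ℤ) := by
  have hA := P.A_pos'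
  obtain ⟨hb0, hbe, hbκ⟩ := P.b_bounds
  have hd := P.δ_pos
  have hb1 : P.b < 1 := by linarith [P.e_small]
  obtain ⟨h1, h2⟩ := Finset.mem_Icc.1 hv
  rw [Int.ceil_le, div_le_iff₀ (by linarith)] at h1
  rw [Int.le_floor, le_div_iff₀ (by linarith)] at h2
  set x := P.pt v with hx
  have hvx : (v : ℝ) = x * P.A := by rw [hx, Par.pt]; field_simp
  rw [hvx] at h1 h2
  have l : ψ + q ≤ x * (1 + P.b) := le_of_mul_le_mul_right (by linarith) hA
  have u : x * (1 - P.b) ≤ ψ + q := le_of_mul_le_mul_right (by linarith) hA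
  have hy : ψ + q ≤ (P.N0 : ℝ) - P.δ := by
    have : (q : ℝ) + 1 ≤ P.N0 := by exact_mod_cast hq
    linarith [hψ.2]
  have hq0 : (0 : ℝ) ≤ q := Nat.cast_nonneg q
  have hx0 : 0 < x := pos_of_mul_pos_left (lt_of_lt_of_le (by linarith [hψ.1]) l) (by linarith)
  have hxN : x ≤ 2 * P.N0 := by
    nlinarith [mul_le_mul_of_nonneg_left (hbe.trans P.e_small) hx0.le]
  have hbx : P.b * x ≤ P.δ / 2 := by
    have h1 := mul_le_mul hbκ hxN hx0.le (by linarith [P.κ_pos])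
    have h2 : 2 * P.κ * P.N0 ≤ P.e * P.δ := P.k_big
    nlinarith [P.e_small]
  have hlo : (q : ℝ) + P.δ / 2 ≤ x := by linarith [hψ.1]
  have hhi : x ≤ (q : ℝ) + (1 - P.δ / 2) := by linarith [hψ.2]
  have hfl : ⌊x⌋ = (q : ℤ) := Int.floor_eq_iff.2 ⟨by push_cast; linarith, by push_cast; linarith⟩
  refine ⟨Finset.mem_filter.2 ⟨Finset.mem_filter.2 ⟨Finset.mem_Icc.2 ⟨?_, ?_⟩, ?_, ?_⟩, ?_, ?_⟩, hfl⟩
  · have : (0 : ℝ) < v := hvx ▸ mul_pos hx0 hA
    have : (0 : ℤ) < v := Int.cast_pos.1 this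
    omega
  · have : (v : ℝ) ≤ ((P.N0 * P.A : ℕ) : ℝ) := by
      rw [hvx]; push_cast
      refine mul_le_mul_of_nonneg_right ?_ hA.le
      linarith
    exact_mod_cast this
  · rw [Int.fract, ← hx, hfl]; push_cast; linarith
  · rw [Int.fract, ← hx, hfl]; push_cast; linarith
  · simp only [Par.lo', ← hx, hfl]; push_cast; linarith
  · simp only [Par.hi', ← hx, hfl]; push_cast; linarith

theorem pos_eq (hψ : ψ ∈ Set.Icc P.δ (1 - P.δ)) :
    P.pos ψ = (Finset.range P.N0).biUnion (P.block ψ) := by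
  refine subset_antisymm (fun v hv => ?_) fun v hv => ?_
  · obtain ⟨hvp, h1, h2⟩ := Finset.mem_filter.1 hv
    obtain ⟨hv0, hvN, hx1, hx2, hf1, hf2, -, -, -⟩ := P.mem_Vp hvp
    have hA := P.A_pos'
    have hb := P.b_bounds
    have hd := P.δ_pos
    set x := P.pt v with hx
    have hfl : 0 ≤ ⌊x⌋ := Int.floor_nonneg.2 (by linarith)
    have hlt : ⌊x⌋ < (P.N0 : ℤ) := by
      have : (⌊x⌋ : ℝ) < P.N0 := by
        rw [Int.fract] at hf1; linarith
      exact_mod_cast this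
    have hqe : ((⌊x⌋.toNat : ℕ) : ℝ) = ⌊x⌋ := by exact_mod_cast Int.toNat_of_nonneg hfl
    simp only [Par.lo', Par.hi', ← hx] at h1 h2
    have hvx : (v : ℝ) = P.A * x := by rw [hx, Par.pt]; field_simp
    refine Finset.mem_biUnion.2 ⟨⌊x⌋.toNat, Finset.mem_range.2 (by omega), Finset.mem_Icc.2 ⟨?_, ?_⟩⟩
    · rw [Int.ceil_le, hqe, div_le_iff₀ (by linarith [hb.1]), hvx, mul_assoc]
      exact mul_le_mul_of_nonneg_left (by linarith) hA.le
    · rw [Int.le_floor, hqe, le_div_iff₀ (by linarith [hb.2.1, P.e_small]), hvx, mul_assoc]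
      exact mul_le_mul_of_nonneg_left (by linarith) hA.le
  · obtain ⟨q, hq, hv⟩ := Finset.mem_biUnion.1 hv
    exact (P.mem_block hψ (Finset.mem_range.1 hq) hv).1

theorem sum_pos (hψ : ψ ∈ Set.Icc P.δ (1 - P.δ)) (f : ℤ → ℝ) :
    ∑ v ∈ P.pos ψ, f v = ∑ q ∈ Finset.range P.N0, ∑ v ∈ P.block ψ q, f v := by
  rw [P.pos_eq hψ, Finset.sum_biUnion]
  intro q hq q' hq' hne
  refine Finset.disjoint_left.2 fun v hv hv' => hne ?_
  have := (P.mem_block hψ (Finset.mem_range.1 hq) hv).2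
  have := (P.mem_block hψ (Finset.mem_range.1 hq') hv').2
  omega

theorem pw_block (hψ : ψ ∈ Set.Icc P.δ (1 - P.δ)) {q : ℕ} (hq : q < P.N0) {v : ℤ}
    (hv : v ∈ P.block ψ q) :
    (1 - P.e) ^ 5 * P.scale ψ q ≤ P.pw v ∧ P.pw v ≤ (1 + P.e) ^ 5 * P.scale ψ q := by
  obtain ⟨hp, hfl⟩ := P.mem_block hψ hq hv
  obtain ⟨hvp, h1, h2⟩ := Finset.mem_filter.1 hp
  obtain ⟨-, -, hx1, -, -, -, -, -, hbe⟩ := P.mem_Vp hvp
  obtain ⟨hb0, hb1, -⟩ := P.b_bounds
  have he := P.e_pos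
  have he' := P.e_small
  have hd := P.δ_pos
  have hA := P.A_pos'
  have hκ := P.κ_pos
  set x := P.pt v with hx
  simp only [Par.lo', Par.hi', ← hx, hfl, Int.cast_natCast] at h1 h2
  set y := ψ + q with hy
  have hx0 : 0 < x := by linarith
  have hy0 : 0 < y := by linarith [hψ.1, (Nat.cast_nonneg q : (0 : ℝ) ≤ q)]
  have hyx : y ≤ (1 + P.e) * x := by nlinarith
  have hxy : (1 - P.e) * x ≤ y := by nlinarith
  set S := |Real.sin (π * ψ)| with hS
  set s := |Real.sin (π * x)| with hs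
  have hSδ : P.δ ≤ S := by
    have := two_mul_le_sin hd.le hψ.1 hψ.2
    linarith [le_abs_self (Real.sin (π * ψ))]
  have hdiff : π * |y - x| ≤ P.e * S := by
    refine (mul_le_mul_of_nonneg_left (abs_le.2 ⟨by linarith, by linarith⟩) Real.pi_pos.le).trans
      (hbe.trans (mul_le_mul_of_nonneg_left hSδ he.le))
  have hs1 : (1 - P.e) * S ≤ s := by
    have := abs_sin_diff y x
    rw [hy, show ψ + (q : ℝ) = ψ + ((q : ℤ) : ℝ) by push_cast; rfl, abs_sin_shift] at this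
    simp only [Int.cast_natCast, ← hy] at this
    linarith
  have hs2 : s ≤ (1 + P.e) * S := by
    have := abs_sin_diff x y
    rw [abs_sub_comm, hy, show ψ + (q : ℝ) = ψ + ((q : ℤ) : ℝ) by push_cast; rfl,
      abs_sin_shift] at this
    simp only [Int.cast_natCast, ← hy] at this
    linarith
  set D := π ^ 2 * P.κ * P.A with hD
  have hD0 : 0 < D := by positivity
  set c := (1 - 3 * P.e) ^ 2
  have hc : 0 ≤ c := sq_nonneg _
  have e1 : P.pw v = c / D * (s ^ 2 / x ^ 3) := by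
    rw [Par.pw, ← hx, abs_of_pos hx0, hs, sq_abs, hD]; simp only [c]; field_simp
  have e2 : P.scale ψ q = c / D * (S ^ 2 / y ^ 3) := by
    rw [Par.scale, ← hy, hS, sq_abs, hD]; simp only [c]; field_simp
  rw [e1, e2]
  constructor
  · rw [mul_left_comm]
    refine mul_le_mul_of_nonneg_left ?_ (by positivity)
    rw [← mul_div_assoc, div_le_div_iff₀ (by positivity) (by positivity)]
    calc (1 - P.e) ^ 5 * S ^ 2 * x ^ 3 = ((1 - P.e) * S) ^ 2 * ((1 - P.e) * x) ^ 3 := by ring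
      _ ≤ s ^ 2 * y ^ 3 := mul_le_mul (pow_le_pow_left₀ (by
            exact mul_nonneg (by linarith) (abs_nonneg _)) hs1 2)
          (pow_le_pow_left₀ (by nlinarith) hxy 3) (pow_nonneg (by nlinarith) 3) (by positivity)
  · rw [mul_left_comm]
    refine mul_le_mul_of_nonneg_left ?_ (by positivity)
    rw [← mul_div_assoc, div_le_div_iff₀ (by positivity) (by positivity)]
    calc s ^ 2 * y ^ 3 ≤ ((1 + P.e) * S) ^ 2 * ((1 + P.e) * x) ^ 3 :=
          mul_le_mul (pow_le_pow_left₀ (abs_nonneg _) hs2 2) (pow_le_pow_left₀ hy0.le hyx 3)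
            (by positivity) (by positivity)
      _ = _ := by ring

theorem lower_pos (hψ : ψ ∈ Set.Icc P.δ (1 - P.δ)) :
    (1 - 14 * P.e) * ∑ q ∈ Finset.range P.N0, Real.sin (π * ψ) ^ 2 / (π * (ψ + q)) ^ 2 ≤
      ∑ v ∈ P.pos ψ, P.pw v := by
  rw [P.sum_pos hψ, Finset.mul_sum]
  refine Finset.sum_le_sum fun q hq => ?_
  have hA := P.A_pos'
  have hκ := P.κ_pos
  have he := P.e_pos
  have he' := P.e_small
  obtain ⟨hb0, hb1, -⟩ := P.b_bounds
  set y := ψ + (q : ℝ) with hy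
  have hyd : P.δ ≤ y := by linarith [hψ.1, (Nat.cast_nonneg q : (0 : ℝ) ≤ q)]
  have hy0 : 0 < y := lt_of_lt_of_le P.δ_pos hyd
  have hcard : P.A * y * P.κ * (1 - 3 * P.e) ≤ (P.block ψ q).card := by
    rw [Par.block, Int.card_Icc, ← hy]
    set a := P.A * y / (1 + P.b)
    set c := P.A * y / (1 - P.b)
    have h3 : ((⌊c⌋ + 1 - ⌈a⌉ : ℤ) : ℝ) ≤ ((⌊c⌋ + 1 - ⌈a⌉).toNat : ℝ) := by
      exact_mod_cast Int.self_le_toNat _
    refine le_trans ?_ h3
    push_cast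
    have h4 : 2 * P.b * (P.A * y) ≤ c - a := by
      have hAy : 0 ≤ P.A * y := by positivity
      rw [show c - a = P.A * y * (2 * P.b) / ((1 + P.b) * (1 - P.b)) by
        simp only [a, c]
        rw [div_sub_div _ _ (by linarith) (by linarith)]
        ring]
      rw [le_div_iff₀ (by nlinarith)]
      nlinarith [mul_nonneg (mul_nonneg hb0 hAy) (mul_nonneg hb0 hb0)]
    have h5 : 1 ≤ P.e * P.κ * P.A * y :=
      P.A_len.trans (mul_le_mul_of_nonneg_left hyd (by positivity))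
    have : 2 * P.b * (P.A * y) = P.A * y * P.κ * (1 - 2 * P.e) := by simp only [Par.b]; ring
    linarith [Int.sub_one_lt_floor c, Int.ceil_lt_add_one a]
  have hsc : 0 ≤ (1 - P.e) ^ 5 * P.scale ψ q := by
    have : (0 : ℝ) ≤ 1 - P.e := by linarith
    simp only [Par.scale, ← hy]
    positivity
  calc (1 - 14 * P.e) * (Real.sin (π * ψ) ^ 2 / (π * y) ^ 2)
      ≤ ((1 - 3 * P.e) ^ 3 * (1 - P.e) ^ 5) * (Real.sin (π * ψ) ^ 2 / (π * y) ^ 2) := by
        refine mul_le_mul_of_nonneg_right ?_ (by positivity)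
        have h1 := one_add_mul_le_pow (a := -(3 * P.e)) (by linarith) 3
        have h2 := one_add_mul_le_pow (a := -P.e) (by linarith) 5
        have h3 := mul_le_mul h1 h2 (by push_cast; linarith) (pow_nonneg (by linarith) 3)
        push_cast [← sub_eq_add_neg] at h3
        nlinarith
    _ = P.A * y * P.κ * (1 - 3 * P.e) * ((1 - P.e) ^ 5 * P.scale ψ q) := by
        simp only [Par.scale, ← hy]; field_simp
    _ ≤ (P.block ψ q).card * ((1 - P.e) ^ 5 * P.scale ψ q) :=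
        mul_le_mul_of_nonneg_right hcard hsc
    _ ≤ _ := by
        rw [← nsmul_eq_mul]
        exact Finset.card_nsmul_le_sum _ _ _ fun v hv => (P.pw_block hψ (Finset.mem_range.1 hq) hv).1

theorem div_pos_bound (hψ : ψ ∈ Set.Icc P.δ (1 - P.δ)) {d : ℕ} (hd : 2 ≤ d) :
    ∑ v ∈ P.pos ψ, (if (d : ℤ) ∣ v then P.pw v else 0) ≤
      11 / 10 / d * ∑ v ∈ P.pos ψ, P.pw v + 2 * P.N0 * ((P.k : ℝ) + 1) / (P.δ ^ 3 * P.A) := by
  rw [P.sum_pos hψ, P.sum_pos hψ, Finset.mul_sum,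
    show 2 * P.N0 * ((P.k : ℝ) + 1) / (P.δ ^ 3 * P.A) =
      ∑ _q ∈ Finset.range P.N0, 2 * (((P.k : ℝ) + 1) / (P.δ ^ 3 * P.A)) by
      rw [Finset.sum_const, Finset.card_range, nsmul_eq_mul]; ring,
    ← Finset.sum_add_distrib]
  refine Finset.sum_le_sum fun q hq => ?_
  have hA := P.A_pos'
  have hκ := P.κ_pos
  have he := P.e_pos
  have he' := P.e_small
  have hd0 : (0 : ℝ) < d := by exact_mod_cast (by omega : 0 < d)
  set B := P.block ψ q with hB
  set Y := P.scale ψ q with hY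
  have hy : P.δ ≤ ψ + q := by linarith [hψ.1, (Nat.cast_nonneg q : (0 : ℝ) ≤ q)]
  have hY0 : 0 ≤ Y := by
    have : 0 < ψ + q := lt_of_lt_of_le P.δ_pos hy
    simp only [hY, Par.scale]; positivity
  set c := (B.filter fun v => (d : ℤ) ∣ v).card with hc
  have hcnt : (c : ℝ) ≤ (B.card : ℝ) / d + 2 := by
    set a := ⌈P.A * (ψ + q) / (1 + P.b)⌉
    set b := ⌊P.A * (ψ + q) / (1 - P.b)⌋
    have hsub : (B.filter fun v => (d : ℤ) ∣ v) ⊆
        (Finset.Icc (a / (d : ℤ)) (b / (d : ℤ))).image fun u => u * (d : ℤ) := by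
      intro v hv
      obtain ⟨hvB, hdv⟩ := Finset.mem_filter.1 hv
      obtain ⟨h1, h2⟩ := Finset.mem_Icc.1 hvB
      refine Finset.mem_image.2 ⟨v / d, Finset.mem_Icc.2 ⟨?_, ?_⟩, Int.ediv_mul_cancel hdv⟩
      · exact Int.ediv_le_ediv (by omega) h1
      · exact Int.ediv_le_ediv (by omega) h2
    have h1 := (Finset.card_le_card hsub).trans Finset.card_image_le
    rcases lt_or_ge b a with hab | hab
    · have : B = ∅ := Finset.Icc_eq_empty (not_le.2 hab)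
      rw [this] at hc
      simp [hc]
      positivity
    rw [Int.card_Icc] at h1
    have e1 := Int.mul_ediv_add_emod b (d : ℤ)
    have e2 := Int.mul_ediv_add_emod a (d : ℤ)
    have e3 := Int.emod_nonneg b (show (d : ℤ) ≠ 0 by omega)
    have e4 := Int.emod_lt_of_pos a (show (0 : ℤ) < d by omega)
    have hmono : a / (d : ℤ) ≤ b / (d : ℤ) := Int.ediv_le_ediv (by omega) hab
    have hBc : (B.card : ℤ) = b + 1 - a := by
      rw [hB, Par.block, Int.card_Icc, Int.toNat_of_nonneg (by omega)]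
    have h2 : (c : ℤ) * d ≤ (B.card : ℤ) + 2 * d := by
      have h3 : (c : ℤ) ≤ b / (d : ℤ) + 1 - a / (d : ℤ) := by omega
      nlinarith
    have h2' : (c : ℝ) * d ≤ (B.card : ℝ) + 2 * d := by exact_mod_cast h2
    rw [div_add' _ _ _ hd0.ne', le_div_iff₀ hd0]
    exact h2'
  have hYb : (1 + P.e) ^ 5 * Y ≤ ((P.k : ℝ) + 1) / (P.δ ^ 3 * P.A) := by
    have h5 : (1 + P.e) ^ 5 ≤ 2 :=
      (pow_le_pow_left₀ (by linarith) (show 1 + P.e ≤ 1 + 1 / 200 by linarith) 5).trans (by norm_num)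
    have hd' := P.δ_pos
    have hY1 : Y ≤ 1 / (9 * (P.δ ^ 3 * P.κ * P.A)) := by
      simp only [hY, Par.scale]
      refine div_le_div₀ zero_le_one ?_ (by positivity) ?_
      · have h1 : (1 - 3 * P.e) ^ 2 ≤ 1 := pow_le_one₀ (by linarith) (by linarith)
        exact mul_le_one₀ h1 (sq_nonneg _) (Real.sin_sq_le_one _)
      · calc 9 * (P.δ ^ 3 * P.κ * P.A) ≤ π ^ 2 * ((ψ + q) ^ 3 * P.κ * P.A) := by
              refine mul_le_mul (by nlinarith [Real.pi_gt_three]) ?_ (by positivity) (by positivity)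
              gcongr
          _ = _ := by ring
    refine (mul_le_mul h5 hY1 hY0 (by norm_num)).trans ?_
    rw [show ((P.k : ℝ) + 1) / (P.δ ^ 3 * P.A) = 1 / (P.δ ^ 3 * P.κ * P.A) by
      rw [Par.κ]; field_simp]
    rw [mul_one_div, div_le_div_iff₀ (by positivity) (by positivity)]
    nlinarith [show 0 < P.δ ^ 3 * P.κ * P.A by positivity]
  calc ∑ v ∈ B, (if (d : ℤ) ∣ v then P.pw v else 0)
      = ∑ v ∈ B with (d : ℤ) ∣ v, P.pw v := (Finset.sum_filter _ _).symm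
    _ ≤ c * ((1 + P.e) ^ 5 * Y) := by
        rw [← nsmul_eq_mul]
        exact Finset.sum_le_card_nsmul _ _ _ fun v hv =>
          (P.pw_block hψ (Finset.mem_range.1 hq) (Finset.mem_filter.1 hv).1).2
    _ ≤ ((B.card : ℝ) / d + 2) * ((1 + P.e) ^ 5 * Y) :=
        mul_le_mul_of_nonneg_right hcnt (by positivity)
    _ ≤ 11 / 10 / d * ((B.card : ℝ) * ((1 - P.e) ^ 5 * Y)) +
          2 * (((P.k : ℝ) + 1) / (P.δ ^ 3 * P.A)) := by
        rw [add_mul]
        refine add_le_add ?_ (mul_le_mul_of_nonneg_left hYb (by norm_num))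
        have h5 : (1 + P.e) ^ 5 ≤ 11 / 10 * (1 - P.e) ^ 5 :=
          calc (1 + P.e) ^ 5 ≤ (1 + 1 / 200 : ℝ) ^ 5 := pow_le_pow_left₀ (by linarith) (by linarith) 5
            _ ≤ 11 / 10 * (1 - 1 / 200) ^ 5 := by norm_num
            _ ≤ _ := mul_le_mul_of_nonneg_left
              (pow_le_pow_left₀ (by norm_num) (by linarith) 5) (by norm_num)
        have : 0 ≤ (B.card : ℝ) / d * Y := by positivity
        calc (B.card : ℝ) / d * ((1 + P.e) ^ 5 * Y) = (B.card : ℝ) / d * Y * (1 + P.e) ^ 5 := by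
              ring
          _ ≤ (B.card : ℝ) / d * Y * (11 / 10 * (1 - P.e) ^ 5) :=
              mul_le_mul_of_nonneg_left h5 this
          _ = _ := by ring
    _ ≤ _ := by
        gcongr
        rw [← nsmul_eq_mul]
        exact Finset.card_nsmul_le_sum _ _ _ fun v hv => (P.pw_block hψ (Finset.mem_range.1 hq) hv).1

end Par

end Vale.Agent.P130.Full.Core.Profile
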